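import Vale.Agent.P022.H567.Cft

/-!
P022-CFT, block [NREC]: reciprocity for cyclotomic characters (the norm congruence).
-/

open NumberField IsDedekindDomain Module Finset

noncomputable section

namespace Vale.Agent.P022.C

namespace H915

/-! ### the sign of the norm -/

section sign

variable {K : Type*} [Field K] [NumberField K]

/-- the contribution of an infinite place to the norm -/
def rpl (x : K) (w : InfinitePlace K) : ℝ :=
  open Classical in
  if h : w.IsReal then InfinitePlace.embedding_of_isReal h x else w x ^ 2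

theorem prod_rpl (x : K) : ((Algebra.norm ℚ x : ℚ) : ℝ) = ∏ w : InfinitePlace K, rpl x w := by
  classical
  have h := Algebra.norm_eq_prod_embeddings ℚ ℂ x
  have h1 : ∏ σ : K →ₐ[ℚ] ℂ, σ x = ∏ w : InfinitePlace K, ((rpl x w : ℝ) : ℂ) := by
    rw [← Fintype.prod_equiv (RingHom.equivRatAlgHom K ℂ) (fun f => f x)
      (fun φ => φ x) fun _ => by simp [RingHom.equivRatAlgHom_apply]]
    rw [← Finset.prod_fiberwise Finset.univ InfinitePlace.mk (fun φ : K →+* ℂ => φ x)]
    refine Finset.prod_congr rfl fun w _ => ?_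
    have e : ({φ | InfinitePlace.mk φ = w} : Finset (K →+* ℂ)) =
        {w.embedding} ∪ {ComplexEmbedding.conjugate w.embedding} := by
      ext φ
      rw [Finset.mem_filter, ← InfinitePlace.mk_embedding w, InfinitePlace.mk_eq_iff,
        ComplexEmbedding.conjugate, star_involutive.eq_iff]
      simp [ComplexEmbedding.conjugate]
    rw [e]
    unfold rpl
    split_ifs with hw
    · rw [ComplexEmbedding.isReal_iff.mp (InfinitePlace.isReal_iff.mp hw),
        Finset.union_idempotent, Finset.prod_singleton,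
        InfinitePlace.embedding_of_isReal_apply]
    · have hne : w.embedding ≠ ComplexEmbedding.conjugate w.embedding := by
        rwa [Ne, eq_comm, ← ComplexEmbedding.isReal_iff, ← InfinitePlace.isReal_iff]
      rw [← Finset.insert_eq, Finset.prod_pair hne, ComplexEmbedding.conjugate_coe_eq,
        Complex.mul_conj, ← InfinitePlace.norm_embedding_eq, Complex.normSq_eq_norm_sq]
  rw [h1] at h
  have h2 : ((algebraMap ℚ ℂ) ((Algebra.norm ℚ) x)) = (((Algebra.norm ℚ x : ℚ) : ℝ) : ℂ) := by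
    simp
  rw [h2, ← Complex.ofReal_prod] at h
  exact_mod_cast h

omit [NumberField K] in
theorem card_neg (x : K) : Nat.card {φ : K →+* ℝ // φ x < 0} =
    Nat.card {w : InfinitePlace K // rpl x w < 0} := by
  have hr : ∀ φ : K →+* ℝ, ComplexEmbedding.IsReal (Complex.ofRealHom.comp φ) := by
    intro φ
    ext y
    simp [ComplexEmbedding.conjugate_coe_eq]
  have hw : ∀ φ : K →+* ℝ, (InfinitePlace.mk (Complex.ofRealHom.comp φ)).IsReal := fun φ =>
    ⟨_, hr φ, rfl⟩
  have he : ∀ φ : K →+* ℝ, InfinitePlace.embedding_of_isReal (hw φ) = φ := by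
    intro φ
    ext y
    have h := InfinitePlace.embedding_of_isReal_apply (hw φ) y
    rw [InfinitePlace.embedding_mk_eq_of_isReal (hr φ)] at h
    exact Complex.ofReal_injective h
  refine Nat.card_congr (Equiv.ofBijective (fun φ => ⟨InfinitePlace.mk
    (Complex.ofRealHom.comp φ.1), ?_⟩) ⟨?_, ?_⟩)
  · rw [rpl, dif_pos (hw φ.1), he]
    exact φ.2
  · rintro ⟨φ, h1⟩ ⟨ψ, h2⟩ h
    have h3 : InfinitePlace.mk (Complex.ofRealHom.comp φ) =
        InfinitePlace.mk (Complex.ofRealHom.comp ψ) := congrArg Subtype.val h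
    apply Subtype.ext
    change φ = ψ
    have h4 := InfinitePlace.embedding_mk_eq_of_isReal (hr φ)
    rw [h3, InfinitePlace.embedding_mk_eq_of_isReal (hr ψ)] at h4
    ext y
    have h5 := RingHom.congr_fun h4 y
    simpa using h5.symm
  · rintro ⟨w, h⟩
    by_cases hre : w.IsReal
    · rw [rpl, dif_pos hre] at h
      refine ⟨⟨InfinitePlace.embedding_of_isReal hre, h⟩, Subtype.ext ?_⟩
      change InfinitePlace.mk (Complex.ofRealHom.comp (InfinitePlace.embedding_of_isReal hre)) = w
      have h5 : Complex.ofRealHom.comp (InfinitePlace.embedding_of_isReal hre) = w.embedding := by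
        ext y
        exact InfinitePlace.embedding_of_isReal_apply hre y
      rw [h5, InfinitePlace.mk_embedding]
    · rw [rpl, dif_neg hre] at h
      exact absurd h (not_lt.2 (sq_nonneg _))

theorem sign_norm (x : K) :
    ((Algebra.norm ℚ x : ℚ) : ℝ) =
      (-1) ^ (Nat.card {φ : K →+* ℝ // φ x < 0}) * |((Algebra.norm ℚ x : ℚ) : ℝ)| := by
  classical
  rw [card_neg, prod_rpl, Finset.abs_prod, Nat.card_eq_fintype_card, Fintype.card_subtype,
    ← Finset.prod_const, Finset.prod_filter, ← Finset.prod_mul_distrib]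
  refine Finset.prod_congr rfl fun w _ => ?_
  split_ifs with h
  · rw [abs_of_neg h]; ring
  · rw [abs_of_nonneg (not_lt.1 h), one_mul]

end sign

/-! ### the sum for an integral element -/

section sum

variable {K : Type} [Field K] [NumberField K] {M n : ℕ} (χ : (ZMod M)ˣ →* Multiplicative (ZMod n))

theorem ex_one : ex χ 1 = 0 := by
  classical
  unfold ex
  rw [dif_pos isUnit_one]
  have : (isUnit_one : IsUnit (1 : ZMod M)).unit = 1 := by ext; simp
  rw [this, map_one, toAdd_one]

theorem ex_mul {a b : ZMod M} (ha : IsUnit a) (hb : IsUnit b) :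
    ex χ (a * b) = ex χ a + ex χ b := by
  classical
  unfold ex
  rw [dif_pos ha, dif_pos hb, dif_pos (ha.mul hb), ← toAdd_mul, ← map_mul]
  congr 2
  ext
  simp

theorem ex_pow {a : ZMod M} (ha : IsUnit a) (k : ℕ) : ex χ (a ^ k) = k • ex χ a := by
  induction k with
  | zero => simp [ex_one]
  | succ k ih => rw [pow_succ, ex_mul χ (ha.pow k) ha, ih, succ_nsmul]

theorem ex_prod {ι : Type*} (s : Finset ι) (a : ι → ZMod M) (k : ι → ℕ)
    (ha : ∀ i ∈ s, IsUnit (a i)) :
    IsUnit (∏ i ∈ s, a i ^ k i) ∧ ex χ (∏ i ∈ s, a i ^ k i) = ∑ i ∈ s, k i • ex χ (a i) := by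
  classical
  induction s using Finset.induction_on with
  | empty => simp [ex_one]
  | insert i s hi ih =>
    obtain ⟨h1, h2⟩ := ih fun j hj => ha j (Finset.mem_insert_of_mem hj)
    have h3 := ha i (Finset.mem_insert_self _ _)
    rw [Finset.prod_insert hi, Finset.sum_insert hi, ex_mul χ (h3.pow _) h1, ex_pow χ h3, h2]
    exact ⟨(h3.pow _).mul h1, rfl⟩

theorem two_ex : ex χ (-1) + ex χ (-1) = 0 := by
  rw [← ex_mul χ isUnit_one.neg isUnit_one.neg, neg_one_mul, neg_neg, ex_one]

theorem norm_cong {x y : 𝓞 K} (h : (M : 𝓞 K) ∣ x - y) :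
    ((Algebra.norm ℤ x : ℤ) : ZMod M) = ((Algebra.norm ℤ y : ℤ) : ZMod M) := by
  classical
  obtain ⟨z, hz⟩ := h
  have hx : x = y + M * z := by rw [← hz]; ring
  have key : ∀ t : 𝓞 K, ((Algebra.norm ℤ t : ℤ) : ZMod M) =
      ((Int.castRingHom (ZMod M)).mapMatrix
        (Algebra.leftMulMatrix (RingOfIntegers.basis K) t)).det := by
    intro t
    rw [Algebra.norm_eq_matrix_det (RingOfIntegers.basis K), ← RingHom.map_det]
    rfl
  rw [key, key, hx]
  congr 1
  have h0 : ((M : ℕ) : Matrix (Free.ChooseBasisIndex ℤ (𝓞 K)) (Free.ChooseBasisIndex ℤ (𝓞 K))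
      (ZMod M)) = 0 := by
    rw [← map_natCast (algebraMap (ZMod M) _), ZMod.natCast_self, map_zero]
  rw [map_add, map_mul, map_natCast, map_add, map_mul, map_natCast, h0, zero_mul, add_zero]

theorem finite_int {r : 𝓞 K} (hr : r ≠ 0) :
    {v : HeightOneSpectrum (𝓞 K) | v.valuation K (r : K) ≠ 1}.Finite := by
  have h : Ideal.span {r} ≠ 0 := by
    simpa [Ideal.zero_eq_bot, Ideal.span_singleton_eq_bot] using hr
  refine (Ideal.finite_factors h).subset fun v hv => ?_
  have h1 : v.valuation K (r : K) < 1 := lt_of_le_of_ne (v.valuation_le_one r) hv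
  exact (v.valuation_lt_one_iff_dvd r).1 h1

theorem finite_ord {x : K} (hx : x ≠ 0) :
    {v : HeightOneSpectrum (𝓞 K) | ordv v x ≠ 0}.Finite := by
  obtain ⟨a, b, hb, rfl⟩ := IsFractionRing.div_surjective (A := 𝓞 K) x
  have hb0 : b ≠ 0 := nonZeroDivisors.ne_zero hb
  have ha0 : a ≠ 0 := by
    rintro rfl
    exact hx (by simp)
  refine ((finite_int (K := K) ha0).union (finite_int (K := K) hb0)).subset fun v hv => ?_
  by_contra hc
  simp only [Set.mem_union, Set.mem_ofPred_eq, not_or, not_not] at hc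
  apply hv
  rw [ordv, map_div₀, hc.1, hc.2, div_one, WithZero.log_one, neg_zero]

/-- the sum over the primes -/
def G (x : K) : ZMod n :=
  ∑ᶠ v : HeightOneSpectrum (𝓞 K), ordv v x • ex χ (Ideal.absNorm v.asIdeal : ZMod M)

theorem G_div {x y : K} (hx : x ≠ 0) (hy : y ≠ 0) : G χ (x / y) = G χ x - G χ y := by
  have hs : ∀ {x : K}, x ≠ 0 → (Function.support fun v : HeightOneSpectrum (𝓞 K) =>
      ordv v x • ex χ (Ideal.absNorm v.asIdeal : ZMod M)).Finite := by
    intro x hx
    refine (finite_ord hx).subset fun v hv => ?_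
    intro h
    apply hv
    simp only [h, zero_smul]
  unfold G
  rw [← finsum_sub_distrib (hs hx) (hs hy)]
  refine finsum_congr fun v => ?_
  rw [← sub_smul]
  congr 1
  rw [ordv, ordv, ordv, map_div₀, WithZero.log_div (by simpa using hx) (by simpa using hy)]
  ring

theorem G_ideal {x : 𝓞 K} (hx : x ≠ 0)
    (hc : ∀ v : HeightOneSpectrum (𝓞 K), x ∈ v.asIdeal →
      IsUnit ((Ideal.absNorm v.asIdeal : ℕ) : ZMod M)) :
    G χ (x : K) = ex χ ((Ideal.absNorm (Ideal.span {x}) : ℕ) : ZMod M) := by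
  classical
  have hI : Ideal.span {x} ≠ ⊥ := by
    simpa [Ideal.span_singleton_eq_bot] using hx
  set T := (Ideal.finite_factors hI).toFinset with hT
  have hmT : ∀ v : HeightOneSpectrum (𝓞 K), v ∈ T ↔ x ∈ v.asIdeal := by
    intro v
    rw [hT, Set.Finite.mem_toFinset, Set.mem_ofPred_eq, Ideal.dvd_span_singleton]
  have hm0 : ∀ v : HeightOneSpectrum (𝓞 K), v ∉ T →
      multiplicity v.asIdeal (Ideal.span {x}) = 0 := by
    intro v hv
    rw [hmT, ← Ideal.dvd_span_singleton] at hv
    exact multiplicity_eq_zero.2 hv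
  have h1 : ∏ v ∈ T, v.asIdeal ^ multiplicity v.asIdeal (Ideal.span {x}) = Ideal.span {x} := by
    rw [← finprod_eq_prod_of_mulSupport_subset]
    · exact Ideal.finprod_heightOneSpectrum_pow_multiplicity hI
    · intro v hv
      by_contra h
      apply hv
      simp only
      rw [hm0 v h, pow_zero]
  have h2 : ∀ v : HeightOneSpectrum (𝓞 K),
      ordv v (x : K) = (multiplicity v.asIdeal (Ideal.span {x}) : ℕ) := by
    intro v
    rw [ordv, HeightOneSpectrum.valuation_of_algebraMap,
      HeightOneSpectrum.intValuation_eq_exp_neg_multiplicity v hx, WithZero.log_exp, neg_neg]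
  have h3 : G χ (x : K) = ∑ v ∈ T, multiplicity v.asIdeal (Ideal.span {x}) •
      ex χ (Ideal.absNorm v.asIdeal : ZMod M) := by
    unfold G
    rw [finsum_eq_sum_of_support_subset (s := T)]
    · refine Finset.sum_congr rfl fun v _ => ?_
      rw [h2, natCast_zsmul]
    · intro v hv
      by_contra h
      apply hv
      simp only
      rw [h2, hm0 v h, Nat.cast_zero, zero_smul]
  rw [h3, ← (ex_prod χ T _ _ fun v hv => hc v ((hmT v).1 hv)).2]
  congr 1
  conv_rhs => rw [← h1]
  rw [map_prod, Nat.cast_prod]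
  refine Finset.prod_congr rfl fun v _ => ?_
  rw [map_pow, Nat.cast_pow]

/-- the sum for an integral element congruent to `1` -/
theorem G_int {x : 𝓞 K} (hx : x ≠ 0) (h1 : (M : 𝓞 K) ∣ x - 1) :
    G χ (x : K) = if Algebra.norm ℤ x < 0 then ex χ (-1) else 0 := by
  have hN : ((Algebra.norm ℤ x : ℤ) : ZMod M) = 1 := by
    rw [norm_cong h1, map_one, Int.cast_one]
  rw [G_ideal χ hx, Ideal.absNorm_span_singleton]
  · split_ifs with h
    · have e : (((Algebra.norm ℤ x).natAbs : ℕ) : ZMod M) = -1 := by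
        rw [← hN, ← Int.cast_natCast, Int.ofNat_natAbs_of_nonpos h.le, Int.cast_neg]
      rw [e]
    · have e : (((Algebra.norm ℤ x).natAbs : ℕ) : ZMod M) = 1 := by
        rw [← hN, ← Int.cast_natCast, Int.natAbs_of_nonneg (not_lt.1 h)]
      rw [e, ex_one]
  · intro v hv
    have h2 : ((Ideal.absNorm v.asIdeal : ℕ) : ℤ) ∣ Algebra.norm ℤ x :=
      Ideal.absNorm_dvd_norm_of_mem hv
    obtain ⟨c, hc⟩ := h2
    have h3 : ((Ideal.absNorm v.asIdeal : ℕ) : ZMod M) * (c : ZMod M) = 1 := by
      rw [← hN, hc]; push_cast; ring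
    exact IsUnit.of_mul_eq_one _ h3

/-- an element close to `1` at the primes dividing `M` is a quotient of integers congruent to
`1` mod `M` -/
theorem quot (hM : 1 < M) (b : K) (hb : b ≠ 0)
    (h : ∀ v : HeightOneSpectrum (𝓞 K), (M : 𝓞 K) ∈ v.asIdeal →
      v.valuation K (b - 1) ≤ v.valuation K (M : K)) :
    ∃ x y : 𝓞 K, x ≠ 0 ∧ y ≠ 0 ∧ b = algebraMap (𝓞 K) K x / algebraMap (𝓞 K) K y ∧
      (M : 𝓞 K) ∣ x - 1 ∧ (M : 𝓞 K) ∣ y - 1 := by
  have hM0 : (M : K) ≠ 0 := Nat.cast_ne_zero.2 (by omega)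
  have hM0' : (M : 𝓞 K) ≠ 0 := Nat.cast_ne_zero.2 (by omega)
  have inj : Function.Injective (algebraMap (𝓞 K) K) := FaithfulSMul.algebraMap_injective (𝓞 K) K
  let J : Ideal (𝓞 K) :=
    { carrier := {y | ∃ x : 𝓞 K, algebraMap (𝓞 K) K x = b * algebraMap (𝓞 K) K y}
      add_mem' := by
        rintro y y' ⟨x, hx⟩ ⟨x', hx'⟩
        exact ⟨x + x', by rw [map_add, map_add, hx, hx']; ring⟩
      zero_mem' := ⟨0, by simp⟩
      smul_mem' := by
        rintro c y ⟨x, hx⟩
        exact ⟨c * x, by rw [smul_eq_mul, map_mul, map_mul, hx]; ring⟩ }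
  have hJ : J ⊔ Ideal.span {(M : 𝓞 K)} = ⊤ := by
    by_contra hne
    obtain ⟨P, hP, hle⟩ := Ideal.exists_le_maximal _ hne
    have hMP : (M : 𝓞 K) ∈ P := hle (Ideal.mem_sup_right (Ideal.mem_span_singleton_self _))
    let v : HeightOneSpectrum (𝓞 K) := ⟨P, hP.isPrime, fun h0 => hM0' (by rwa [h0] at hMP)⟩
    have h1 : v.valuation K (M : K) < 1 := by
      have := (v.valuation_lt_one_iff_mem (K := K) (M : 𝓞 K)).2 hMP
      simpa using this
    have h2 : v.valuation K (b - 1) < 1 := lt_of_le_of_lt (h v hMP) h1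
    have h3 : v.valuation K b ≤ 1 := by
      have e : b = (b - 1) + 1 := by ring
      rw [e]
      exact Valuation.map_add_le _ h2.le (by rw [map_one])
    obtain ⟨x, d, hd⟩ := v.exists_primeCompl_mul_eq_of_integer b h3
    exact d.2 (hle (Ideal.mem_sup_left (show (d : 𝓞 K) ∈ J from ⟨x, hd.symm⟩)))
  obtain ⟨y, ⟨x, hx⟩, z, hz, hyz⟩ := Submodule.mem_sup.1
    (show (1 : 𝓞 K) ∈ J ⊔ Ideal.span {(M : 𝓞 K)} by rw [hJ]; trivial)
  obtain ⟨t, rfl⟩ := Ideal.mem_span_singleton.1 hz
  have hy1 : (M : 𝓞 K) ∣ y - 1 := ⟨-t, by rw [← hyz]; ring⟩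
  have hy0 : y ≠ 0 := by
    rintro rfl
    have h4 := norm_cong (K := K) hy1
    rw [map_one, Algebra.norm_zero, Int.cast_zero, Int.cast_one] at h4
    have : Fact (1 < M) := ⟨hM⟩
    exact zero_ne_one h4
  have hy0' : algebraMap (𝓞 K) K y ≠ 0 := (map_ne_zero_iff _ inj).2 hy0
  have hxy : (M : 𝓞 K) ∣ x - y := by
    have h5 : ∀ v : HeightOneSpectrum (𝓞 K),
        v.valuation K (algebraMap (𝓞 K) K (x - y) / M) ≤ 1 := by
      intro v
      have hvM : v.valuation K (M : K) ≠ 0 := (Valuation.ne_zero_iff _).2 hM0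
      rw [map_div₀, div_le_one₀ (zero_lt_iff.2 hvM)]
      by_cases hv : (M : 𝓞 K) ∈ v.asIdeal
      · have e : algebraMap (𝓞 K) K (x - y) = (b - 1) * algebraMap (𝓞 K) K y := by
          rw [map_sub, hx]; ring
        rw [e, map_mul]
        exact (mul_le_mul' (h v hv) (v.valuation_le_one y)).trans (by rw [mul_one])
      · have e : v.valuation K (M : K) = 1 := by
          have := (v.valuation_eq_one_iff_notMem (K := K) (r := (M : 𝓞 K))).2 hv
          simpa using this
        rw [e]
        exact v.valuation_le_one _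
    obtain ⟨c, hc⟩ := HeightOneSpectrum.mem_integers_of_valuation_le_one K _ h5
    refine ⟨c, inj ?_⟩
    rw [map_mul, hc, map_natCast]
    field_simp
  refine ⟨x, y, ?_, hy0, ?_, ?_, hy1⟩
  · rintro rfl
    rw [map_zero] at hx
    exact mul_ne_zero hb hy0' hx.symm
  · rw [hx]; field_simp
  · have e : x - 1 = (x - y) + (y - 1) := by ring
    rw [e]
    exact dvd_add hxy hy1

end sum

end H915

open H915 in
theorem NREC : NRECStmt := by
  classical
  intro K _ _ M hM n χ b hb h
  rcases Nat.lt_or_ge 1 M with hM1 | hM1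
  · obtain ⟨x, y, hx, hy, hbe, hx1, hy1⟩ := quot hM1 b hb h
    have inj : Function.Injective (algebraMap (𝓞 K) K) :=
      FaithfulSMul.algebraMap_injective (𝓞 K) K
    have hx' : algebraMap (𝓞 K) K x ≠ 0 := (map_ne_zero_iff _ inj).2 hx
    have hy' : algebraMap (𝓞 K) K y ≠ 0 := (map_ne_zero_iff _ inj).2 hy
    change G χ b + _ = 0
    have hG : G χ b = (if Algebra.norm ℤ x < 0 then ex χ (-1) else 0) -
        if Algebra.norm ℤ y < 0 then ex χ (-1) else 0 := by
      rw [hbe, G_div χ hx' hy', ← G_int χ hx hx1, ← G_int χ hy hy1]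
    rw [hG]
    have hs := sign_norm b
    set k := Nat.card {φ : K →+* ℝ // φ b < 0} with hk
    have hNx : Algebra.norm ℤ x ≠ 0 := Algebra.norm_ne_zero_iff.2 hx
    have hNy : Algebra.norm ℤ y ≠ 0 := Algebra.norm_ne_zero_iff.2 hy
    have hN : Algebra.norm ℚ b * ((Algebra.norm ℤ y : ℤ) : ℚ) = ((Algebra.norm ℤ x : ℤ) : ℚ) := by
      rw [Algebra.coe_norm_int, Algebra.coe_norm_int, ← map_mul, hbe]
      congr 1
      exact div_mul_cancel₀ _ hy'
    have h2 := two_ex χ
    have hpar : k • ex χ (-1) = if Even k then 0 else ex χ (-1) := by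
      split_ifs with hev
      · obtain ⟨r, hr⟩ := hev
        rw [hr, add_smul, ← smul_add, h2, smul_zero]
      · obtain ⟨r, hr⟩ := Nat.not_even_iff_odd.1 hev
        rw [hr, add_smul, one_smul, two_mul, add_smul, ← smul_add, h2, smul_zero, zero_add]
    rw [hpar]
    have hNb : Algebra.norm ℚ b ≠ 0 := Algebra.norm_ne_zero_iff.2 hb
    have hpos : 0 < |((Algebra.norm ℚ b : ℚ) : ℝ)| := abs_pos.2 (by exact_mod_cast hNb)
    have hk1 : Even k → 0 < Algebra.norm ℚ b := by
      intro hev
      rw [hev.neg_one_pow, one_mul] at hs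
      rw [← hs] at hpos
      exact_mod_cast hpos
    have hk2 : ¬ Even k → Algebra.norm ℚ b < 0 := by
      intro hod
      rw [(Nat.not_even_iff_odd.1 hod).neg_one_pow, neg_one_mul] at hs
      have h7 : ((Algebra.norm ℚ b : ℚ) : ℝ) < 0 := by linarith
      exact_mod_cast h7
    have hxq : ((Algebra.norm ℤ x : ℤ) : ℚ) ≠ 0 := by exact_mod_cast hNx
    have hyq : ((Algebra.norm ℤ y : ℤ) : ℚ) ≠ 0 := by exact_mod_cast hNy
    have cx : Algebra.norm ℤ x < 0 ↔ ((Algebra.norm ℤ x : ℤ) : ℚ) < 0 := by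
      exact_mod_cast Iff.rfl
    have cy : Algebra.norm ℤ y < 0 ↔ ((Algebra.norm ℤ y : ℤ) : ℚ) < 0 := by
      exact_mod_cast Iff.rfl
    rw [← hN] at cx
    by_cases hev : Even k
    · have hp := hk1 hev
      have : (Algebra.norm ℤ x < 0) ↔ (Algebra.norm ℤ y < 0) := by
        rw [cx, cy]
        constructor
        · intro h8
          by_contra h9
          exact absurd h8 (not_lt.2 (mul_nonneg hp.le (not_lt.1 h9)))
        · intro h8
          exact mul_neg_of_pos_of_neg hp h8
      rw [if_pos hev, add_zero]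
      by_cases hy2 : Algebra.norm ℤ y < 0
      · rw [if_pos hy2, if_pos (this.2 hy2), sub_self]
      · rw [if_neg hy2, if_neg (fun h => hy2 (this.1 h)), sub_self]
    · have hp := hk2 hev
      have : (Algebra.norm ℤ x < 0) ↔ ¬ (Algebra.norm ℤ y < 0) := by
        rw [cx, cy, mul_neg_iff]
        constructor
        · rintro (⟨h8, -⟩ | ⟨-, h8⟩)
          · exact absurd h8 (not_lt.2 hp.le)
          · exact not_lt.2 h8.le
        · intro h8
          exact Or.inr ⟨hp, lt_of_le_of_ne (not_lt.1 h8) hyq.symm⟩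
      rw [if_neg hev]
      by_cases hy2 : Algebra.norm ℤ y < 0
      · rw [if_pos hy2, if_neg (fun h => this.1 h hy2)]; ring
      · rw [if_neg hy2, if_pos (this.2 hy2), sub_zero, h2]
  · have hM' : M = 1 := by omega
    subst hM'
    have h0 : ∀ a : ZMod 1, ex χ a = 0 := by
      intro a
      rw [Subsingleton.elim a 1, ex_one]
    simp [h0]

end Vale.Agent.P022.C
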